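import Vale.Agent.Lib.Helper8.SignedLower

/-- For every dimension `d ≥ 2` and every real `c < d + 1` there are a length `N` and unit
vectors `v 0, …, v (N - 1)` of `d`-dimensional Euclidean space such that for every choice of
signs `ε i ∈ {1, -1}` some initial-segment sum `∑ i ≤ k, ε i • v i` has squared norm at least
`c`. -/
theorem Vale.Agent.Results.P262.LowerBoundDimPlusOne.result (d : ℕ) (hd : 2 ≤ d) (c : ℝ)
    (hc : c < (d : ℝ) + 1) :
    ∃ (N : ℕ) (v : Fin N → EuclideanSpace ℝ (Fin d)), (∀ i, ‖v i‖ = 1) ∧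
      ∀ ε : Fin N → ℝ, (∀ i, ε i = 1 ∨ ε i = -1) →
        ∃ k : Fin N, c ≤ ‖∑ i ∈ Finset.Iic k, ε i • v i‖ ^ 2 :=
  Vale.Agent.Lib.Helper8.signed_lower_bound d hd c hc
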