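import Vale.Agent.Lib.Helper8.Rearrange

/-- A zero-sum family of `N` vectors in the unit ball of `d`-dimensional Euclidean space can be
ordered so that the squared norms of the sums of its initial segments add up to at most `d * N`,
that is, so that the mean square norm of these sums is at most `d`. -/
theorem Vale.Agent.Results.P262.MeanSquareSteinitz.result (d N : ℕ)
    (x : Fin N → EuclideanSpace ℝ (Fin d)) (hx : ∀ i, ‖x i‖ ≤ 1) (hsum : ∑ i, x i = 0) :
    ∃ σ : Equiv.Perm (Fin N), ∑ k, ‖∑ i ∈ Finset.Iic k, x (σ i)‖ ^ 2 ≤ d * N :=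
  Vale.Agent.Lib.Helper8.rearrange_mean_square d N x hx hsum
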