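import Vale.Agent.Lib.Helper8.Minimax

/-- For unit-ball vectors `v i` in `d`-dimensional Euclidean space there is a probability
distribution `π` on sign patterns (`true` for `+1`, `false` for `-1`) under which every
initial-segment sum `∑ i ≤ k, ± v i` has second moment at most `d`. -/
theorem Vale.Agent.Results.P262.RandomSigningSecondMoment.result (d N : ℕ)
    (v : Fin N → EuclideanSpace ℝ (Fin d)) (hv : ∀ i, ‖v i‖ ≤ 1) :
    ∃ π : (Fin N → Bool) → ℝ, (∀ s, 0 ≤ π s) ∧ ∑ s, π s = 1 ∧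
      ∀ k, ∑ s, π s * ‖∑ i ∈ Finset.Iic k, (if s i then (1:ℝ) else -1) • v i‖ ^ 2 ≤ d :=
  Vale.Agent.Lib.Helper8.random_signing d N v hv
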