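import Vale.Agent.Lib.Helper8.InitialSums

/-- For unit-ball vectors `v i` in `d`-dimensional Euclidean space and arbitrary test vectors
`θ k j` (a finite family for each `k`), some choice of signs makes the total of the squared
components, along the test vectors, of the initial-segment sums `∑ i ≤ k, ε i • v i` at most
the total squared length of the test vectors. -/
theorem Vale.Agent.Results.P262.TestVectorMeanSquare.result (d N m : ℕ)
    (v : Fin N → EuclideanSpace ℝ (Fin d)) (hv : ∀ i, ‖v i‖ ≤ 1)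
    (θ : Fin N → Fin m → EuclideanSpace ℝ (Fin d)) :
    ∃ ε : Fin N → ℝ, (∀ i, ε i = 1 ∨ ε i = -1) ∧
      ∑ k, ∑ j, (inner ℝ (θ k j) (∑ i ∈ Finset.Iic k, ε i • v i)) ^ 2 ≤
        ∑ k, ∑ j, ‖θ k j‖ ^ 2 :=
  Vale.Agent.Lib.Helper8.test_vector_rounding d N m v hv θ
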