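import Vale.Agent.Lib.Helper8.InitialSums

/-- For unit-ball vectors `v i` in `d`-dimensional Euclidean space and nonnegative weights `ρ k`,
some choice of signs makes the weighted total of the squared norms of the initial-segment sums
`∑ i ≤ k, ε i • v i` at most `d` times the total weight. -/
theorem Vale.Agent.Results.P262.WeightedMeanSquare.result (d N : ℕ)
    (v : Fin N → EuclideanSpace ℝ (Fin d)) (hv : ∀ i, ‖v i‖ ≤ 1)
    (ρ : Fin N → ℝ) (hρ : ∀ k, 0 ≤ ρ k) :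
    ∃ ε : Fin N → ℝ, (∀ i, ε i = 1 ∨ ε i = -1) ∧
      ∑ k, ρ k * ‖∑ i ∈ Finset.Iic k, ε i • v i‖ ^ 2 ≤ d * ∑ k, ρ k :=
  Vale.Agent.Lib.Helper8.weighted_mean_square d N v hv ρ hρ
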